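import Mathlib

namespace Vale.Agent.Results.P194.CosetReduction

open MonoidAlgebra

universe u v

variable {K : Type v} [Field K] {G : Type u} [Group G]

/-- `x` is supported in the subgroup `H`. -/
def SuppIn (H : Subgroup G) (x : MonoidAlgebra K G) : Prop :=
  ∀ g ∈ x.coeff.support, g ∈ H

/-- One-sided inverses are two-sided among the elements of `K[G]` supported in `H`
(that is, the group algebra of `H`, viewed inside `K[G]`, is directly finite). -/
def DirFinOn (K : Type v) [Field K] {G : Type u} [Group G] (H : Subgroup G) : Prop :=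
  ∀ c d : MonoidAlgebra K G, SuppIn H c → SuppIn H d → c * d = 1 → d * c = 1

noncomputable def fil (H : Subgroup G) (x : MonoidAlgebra K G) : MonoidAlgebra K G := by
  classical exact .ofCoeff (x.coeff.filter (fun h => h ∈ H))

noncomputable def cofil (H : Subgroup G) (x : MonoidAlgebra K G) : MonoidAlgebra K G := by
  classical exact .ofCoeff (x.coeff.filter (fun h => ¬ h ∈ H))

lemma fil_add_cofil (H : Subgroup G) (x : MonoidAlgebra K G) : fil H x + cofil H x = x := by
  classical
  ext : 1
  simp only [fil, cofil, coeff_add]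
  exact Finsupp.filter_add_filter_not _ _

lemma coeff_mul_eq_zero (x y : MonoidAlgebra K G) (h : G)
    (hh : ∀ s ∈ x.coeff.support, ∀ t ∈ y.coeff.support, s * t ≠ h) : (x * y).coeff h = 0 := by
  classical
  by_contra hne
  have : h ∈ (x * y).coeff.support := Finsupp.mem_support_iff.2 hne
  have := support_coeff_mul_subset x y this
  obtain ⟨s, hs, t, ht, rfl⟩ := Finset.mem_mul.1 this
  exact hh s hs t ht rfl

lemma mem_supp_fil (H : Subgroup G) (x : MonoidAlgebra K G) (s : G) :
    s ∈ (fil H x).coeff.support ↔ s ∈ x.coeff.support ∧ s ∈ H := by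
  classical
  simp [fil, Finsupp.support_filter, Finset.mem_filter]

lemma mem_supp_cofil (H : Subgroup G) (x : MonoidAlgebra K G) (s : G) :
    s ∈ (cofil H x).coeff.support ↔ s ∈ x.coeff.support ∧ s ∉ H := by
  classical
  simp [cofil, Finsupp.support_filter, Finset.mem_filter]

/-- If `a` is supported in `H` and `a * b = 1` then already `a * fil H b = 1`. -/
lemma mul_fil_eq_one (H : Subgroup G) (a b : MonoidAlgebra K G) (ha : SuppIn H a)
    (hab : a * b = 1) : a * fil H b = 1 := by
  classical
  have e : a * fil H b + a * cofil H b = 1 := by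
    rw [← mul_add, fil_add_cofil, hab]
  ext : 1
  ext h
  by_cases hh : h ∈ H
  · have z : (a * cofil H b).coeff h = 0 := by
      apply coeff_mul_eq_zero
      intro s hs t ht hst
      have ht' := ((mem_supp_cofil H b t).1 ht).2
      apply ht'
      have : t = s⁻¹ * h := by rw [← hst]; group
      rw [this]
      exact H.mul_mem (H.inv_mem (ha s hs)) hh
    have := congrArg (fun w => w.coeff h) e
    simp only [coeff_add, Finsupp.add_apply, z, add_zero] at this
    exact this
  · have z : (a * fil H b).coeff h = 0 := by
      apply coeff_mul_eq_zero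
      intro s hs t ht hst
      have ht' := ((mem_supp_fil H b t).1 ht).2
      apply hh
      rw [← hst]
      exact H.mul_mem (ha s hs) ht'
    rw [z]
    have h1 : h ≠ 1 := fun h1 => hh (h1 ▸ H.one_mem)
    simp [one_def, Ne.symm h1]

lemma main_sub (H : Subgroup G) (hH : DirFinOn K H) (a b : MonoidAlgebra K G) (ha : SuppIn H a)
    (hab : a * b = 1) : b * a = 1 := by
  have h1 := mul_fil_eq_one H a b ha hab
  have h2 : fil H b * a = 1 :=
    hH a (fil H b) ha (fun g hg => ((mem_supp_fil H b g).1 hg).2) h1
  have h3 : b = fil H b := by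
    calc b = (fil H b * a) * b := by rw [h2, one_mul]
      _ = fil H b * (a * b) := by rw [mul_assoc]
      _ = fil H b := by rw [hab, mul_one]
  rw [h3]; exact h2

lemma single_inv_mul (x : G) :
    (single x⁻¹ (1 : K) : MonoidAlgebra K G) * single x 1 = 1 := by
  rw [single_mul_single, inv_mul_cancel, mul_one, one_def]

lemma single_mul_inv (x : G) :
    (single x (1 : K) : MonoidAlgebra K G) * single x⁻¹ 1 = 1 := by
  rw [single_mul_single, mul_inv_cancel, mul_one, one_def]

/-- Coset version. -/
theorem main_coset (H : Subgroup G) (hH : DirFinOn K H) (x : G) (a b : MonoidAlgebra K G)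
    (ha : ∀ g ∈ a.coeff.support, x⁻¹ * g ∈ H) (hab : a * b = 1) : b * a = 1 := by
  classical
  set u : MonoidAlgebra K G := single x 1 with hu
  set v : MonoidAlgebra K G := single x⁻¹ 1 with hv
  have uv : u * v = 1 := single_mul_inv x
  have vu : v * u = 1 := single_inv_mul x
  have ha' : SuppIn H (v * a) := by
    intro g hg
    have := support_coeff_single_mul_subset a (1 : K) x⁻¹ hg
    obtain ⟨s, hs, rfl⟩ := Finset.mem_image.1 this
    exact ha s hs
  have hab' : (v * a) * (b * u) = 1 := by
    calc (v * a) * (b * u) = v * (a * b) * u := by simp only [mul_assoc]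
      _ = 1 := by rw [hab, mul_one, vu]
  have h := main_sub H hH (v * a) (b * u) ha' hab'
  calc b * a = b * (u * v) * a := by rw [uv, mul_one]
    _ = (b * u) * (v * a) := by simp only [mul_assoc]
    _ = 1 := h

lemma commute_of_supp (c d : MonoidAlgebra K G)
    (h : ∀ s ∈ c.coeff.support, ∀ t ∈ d.coeff.support, Commute s t) : Commute c d := by
  have hc := sum_coeff_single c
  have hd := sum_coeff_single d
  rw [← hc, ← hd]
  unfold Finsupp.sum
  apply Commute.sum_left
  intro s hs
  apply Commute.sum_right
  intro t ht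
  exact single_commute_single (h s hs t ht) (Commute.all _ _)

lemma dirFinOn_of_comm (H : Subgroup G) (hc : ∀ s ∈ H, ∀ t ∈ H, s * t = t * s) :
    DirFinOn K H := by
  intro c d hcs hds hcd
  have : Commute c d := commute_of_supp c d (fun s hs t ht => hc s (hcs s hs) t (hds t ht))
  rw [← this.eq]; exact hcd

/-- If the translated support of `a` consists of pairwise commuting elements, every right inverse
of `a` is a left inverse. -/
theorem main_comm (x : G) (a b : MonoidAlgebra K G)
    (ha : ∀ g ∈ a.coeff.support, ∀ h ∈ a.coeff.support,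
      (x⁻¹ * g) * (x⁻¹ * h) = (x⁻¹ * h) * (x⁻¹ * g))
    (hab : a * b = 1) : b * a = 1 := by
  classical
  set S : Set G := {r | ∃ g ∈ a.coeff.support, r = x⁻¹ * g} with hS
  set C : Subgroup G := Subgroup.centralizer S with hC
  set H : Subgroup G := Subgroup.centralizer (C : Set G) with hH
  have hSC : ∀ r ∈ S, r ∈ C := by
    rintro r ⟨g, hg, rfl⟩
    rw [hC, Subgroup.mem_centralizer_iff]
    rintro r' ⟨g', hg', rfl⟩
    exact ha g' hg' g hg
  have hSH : ∀ r ∈ S, r ∈ H := by
    intro r hr
    rw [hH, Subgroup.mem_centralizer_iff]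
    intro h hh
    have hh' : h ∈ C := hh
    rw [hC, Subgroup.mem_centralizer_iff] at hh'
    exact (hh' r hr).symm
  have hHC : ∀ t ∈ H, t ∈ C := by
    intro t ht
    rw [hH, Subgroup.mem_centralizer_iff] at ht
    rw [hC, Subgroup.mem_centralizer_iff]
    intro r hr
    exact ht r (hSC r hr)
  have hcomm : ∀ s ∈ H, ∀ t ∈ H, s * t = t * s := by
    intro s hs t ht
    rw [hH, Subgroup.mem_centralizer_iff] at hs
    exact (hs t (hHC t ht)).symm
  exact main_coset H (dirFinOn_of_comm H hcomm) x a b (fun g hg => hSH _ ⟨g, hg, rfl⟩) hab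

/-- Support of size at most two. -/
theorem main_two (a b : MonoidAlgebra K G) (ha : a.coeff.support.card ≤ 2)
    (hab : a * b = 1) : b * a = 1 := by
  classical
  have key : ∃ x y : G, a.coeff.support ⊆ {x, y} := by
    have h3 : a.coeff.support.card = 0 ∨ a.coeff.support.card = 1 ∨ a.coeff.support.card = 2 := by
      omega
    rcases h3 with h | h | h
    · refine ⟨1, 1, ?_⟩
      rw [Finset.card_eq_zero.1 h]; simp
    · obtain ⟨x, hx⟩ := Finset.card_eq_one.1 h
      refine ⟨x, x, ?_⟩
      rw [hx]; simp
    · obtain ⟨x, y, -, hxy⟩ := Finset.card_eq_two.1 h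
      exact ⟨x, y, hxy.subset⟩
  obtain ⟨x, y, hxy⟩ := key
  apply main_comm x a b _ hab
  intro g hg h hh
  have hg' := hxy hg
  have hh' := hxy hh
  simp only [Finset.mem_insert, Finset.mem_singleton] at hg' hh'
  rcases hg' with rfl | rfl <;> rcases hh' with rfl | rfl <;> simp

/-- Mirror image: if `b` is supported in `H` and `a * b = 1` then already `fil H a * b = 1`. -/
lemma fil_mul_eq_one (H : Subgroup G) (a b : MonoidAlgebra K G) (hb : SuppIn H b)
    (hab : a * b = 1) : fil H a * b = 1 := by
  classical
  have e : fil H a * b + cofil H a * b = 1 := by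
    rw [← add_mul, fil_add_cofil, hab]
  ext : 1
  ext h
  by_cases hh : h ∈ H
  · have z : (cofil H a * b).coeff h = 0 := by
      apply coeff_mul_eq_zero
      intro s hs t ht hst
      have hs' := ((mem_supp_cofil H a s).1 hs).2
      apply hs'
      have : s = h * t⁻¹ := by rw [← hst]; group
      rw [this]
      exact H.mul_mem hh (H.inv_mem (hb t ht))
    have := congrArg (fun w => w.coeff h) e
    simp only [coeff_add, Finsupp.add_apply, z, add_zero] at this
    exact this
  · have z : (fil H a * b).coeff h = 0 := by
      apply coeff_mul_eq_zero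
      intro s hs t ht hst
      have hs' := ((mem_supp_fil H a s).1 hs).2
      apply hh
      rw [← hst]
      exact H.mul_mem hs' (hb t ht)
    rw [z]
    have h1 : h ≠ 1 := fun h1 => hh (h1 ▸ H.one_mem)
    simp [one_def, Ne.symm h1]

lemma main_sub_right (H : Subgroup G) (hH : DirFinOn K H) (a b : MonoidAlgebra K G)
    (hb : SuppIn H b) (hab : a * b = 1) : b * a = 1 := by
  have h1 := fil_mul_eq_one H a b hb hab
  have h2 : b * fil H a = 1 :=
    hH (fil H a) b (fun g hg => ((mem_supp_fil H a g).1 hg).2) hb h1
  have h3 : a = fil H a := by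
    calc a = a * (b * fil H a) := by rw [h2, mul_one]
      _ = (a * b) * fil H a := by rw [mul_assoc]
      _ = fil H a := by rw [hab, one_mul]
  rw [h3]; exact h2

/-- Right coset version, with the condition on `b` only. -/
theorem main_coset_right (H : Subgroup G) (hH : DirFinOn K H) (x : G) (a b : MonoidAlgebra K G)
    (hb : ∀ g ∈ b.coeff.support, g * x⁻¹ ∈ H) (hab : a * b = 1) : b * a = 1 := by
  classical
  set u : MonoidAlgebra K G := single x 1 with hu
  set v : MonoidAlgebra K G := single x⁻¹ 1 with hv
  have uv : u * v = 1 := single_mul_inv x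
  have vu : v * u = 1 := single_inv_mul x
  have hb' : SuppIn H (b * v) := by
    intro g hg
    have := support_coeff_mul_single_subset b (1 : K) x⁻¹ hg
    obtain ⟨s, hs, rfl⟩ := Finset.mem_image.1 this
    exact hb s hs
  have hab' : (u * a) * (b * v) = 1 := by
    calc (u * a) * (b * v) = u * (a * b) * v := by simp only [mul_assoc]
      _ = 1 := by rw [hab, mul_one, uv]
  have h := main_sub_right H hH (u * a) (b * v) hb' hab'
  calc b * a = b * (v * u) * a := by rw [vu, mul_one]
    _ = (b * v) * (u * a) := by simp only [mul_assoc]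
    _ = 1 := h

lemma exists_comm_subgroup (S : Set G) (hS : ∀ r ∈ S, ∀ r' ∈ S, r * r' = r' * r) :
    ∃ H : Subgroup G, (∀ r ∈ S, r ∈ H) ∧ ∀ s ∈ H, ∀ t ∈ H, s * t = t * s := by
  set C : Subgroup G := Subgroup.centralizer S with hC
  set H : Subgroup G := Subgroup.centralizer (C : Set G) with hH
  have hSC : ∀ r ∈ S, r ∈ C := by
    intro r hr
    rw [hC, Subgroup.mem_centralizer_iff]
    intro r' hr'
    exact hS r' hr' r hr
  have hSH : ∀ r ∈ S, r ∈ H := by
    intro r hr
    rw [hH, Subgroup.mem_centralizer_iff]
    intro h hh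
    have hh' : h ∈ C := hh
    rw [hC, Subgroup.mem_centralizer_iff] at hh'
    exact (hh' r hr).symm
  have hHC : ∀ t ∈ H, t ∈ C := by
    intro t ht
    rw [hH, Subgroup.mem_centralizer_iff] at ht
    rw [hC, Subgroup.mem_centralizer_iff]
    intro r hr
    exact ht r (hSC r hr)
  refine ⟨H, hSH, ?_⟩
  intro s hs t ht
  rw [hH, Subgroup.mem_centralizer_iff] at hs
  exact (hs t (hHC t ht)).symm

theorem main_comm_right (x : G) (a b : MonoidAlgebra K G)
    (hb : ∀ g ∈ b.coeff.support, ∀ h ∈ b.coeff.support,
      (g * x⁻¹) * (h * x⁻¹) = (h * x⁻¹) * (g * x⁻¹))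
    (hab : a * b = 1) : b * a = 1 := by
  classical
  obtain ⟨H, hSH, hcomm⟩ := exists_comm_subgroup
    {r : G | ∃ g ∈ b.coeff.support, r = g * x⁻¹} (by
      rintro r ⟨g, hg, rfl⟩ r' ⟨g', hg', rfl⟩
      exact hb g hg g' hg')
  exact main_coset_right H (dirFinOn_of_comm H hcomm) x a b
    (fun g hg => hSH _ ⟨g, hg, rfl⟩) hab

theorem main_two_right (a b : MonoidAlgebra K G) (hb : b.coeff.support.card ≤ 2)
    (hab : a * b = 1) : b * a = 1 := by
  classical
  have key : ∃ x y : G, b.coeff.support ⊆ {x, y} := by
    have h3 : b.coeff.support.card = 0 ∨ b.coeff.support.card = 1 ∨ b.coeff.support.card = 2 := by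
      omega
    rcases h3 with h | h | h
    · refine ⟨1, 1, ?_⟩
      rw [Finset.card_eq_zero.1 h]; simp
    · obtain ⟨x, hx⟩ := Finset.card_eq_one.1 h
      refine ⟨x, x, ?_⟩
      rw [hx]; simp
    · obtain ⟨x, y, -, hxy⟩ := Finset.card_eq_two.1 h
      exact ⟨x, y, hxy.subset⟩
  obtain ⟨x, y, hxy⟩ := key
  apply main_comm_right x a b _ hab
  intro g hg h hh
  have hg' := hxy hg
  have hh' := hxy hh
  simp only [Finset.mem_insert, Finset.mem_singleton] at hg' hh'
  rcases hg' with rfl | rfl <;> rcases hh' with rfl | rfl <;> simp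

/-- Supports with at most `n + 1` elements only see subgroups generated by `n` elements. -/
theorem main_gen (n : ℕ)
    (hn : ∀ S : Finset G, S.card ≤ n → DirFinOn K (Subgroup.closure (S : Set G)))
    (a b : MonoidAlgebra K G) (ha : a.coeff.support.card ≤ n + 1)
    (hab : a * b = 1) : b * a = 1 := by
  classical
  rcases Finset.eq_empty_or_nonempty a.coeff.support with h0 | ⟨x, hx⟩
  · refine main_coset _ (hn ∅ (by simp)) 1 a b ?_ hab
    intro g hg
    rw [h0] at hg
    simp at hg
  · set S : Finset G := (a.coeff.support.erase x).image (fun g => x⁻¹ * g) with hS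
    have hc : S.card ≤ n := by
      refine le_trans Finset.card_image_le ?_
      rw [Finset.card_erase_of_mem hx]
      omega
    refine main_coset _ (hn S hc) x a b ?_ hab
    intro g hg
    by_cases hgx : g = x
    · rw [hgx, inv_mul_cancel]
      exact Subgroup.one_mem _
    · apply Subgroup.subset_closure
      rw [Finset.mem_coe, hS]
      exact Finset.mem_image.2 ⟨g, Finset.mem_erase.2 ⟨hgx, hg⟩, rfl⟩

theorem main_gen_right (n : ℕ)
    (hn : ∀ S : Finset G, S.card ≤ n → DirFinOn K (Subgroup.closure (S : Set G)))
    (a b : MonoidAlgebra K G) (hb : b.coeff.support.card ≤ n + 1)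
    (hab : a * b = 1) : b * a = 1 := by
  classical
  rcases Finset.eq_empty_or_nonempty b.coeff.support with h0 | ⟨x, hx⟩
  · refine main_coset_right _ (hn ∅ (by simp)) 1 a b ?_ hab
    intro g hg
    rw [h0] at hg
    simp at hg
  · set S : Finset G := (b.coeff.support.erase x).image (fun g => g * x⁻¹) with hS
    have hc : S.card ≤ n := by
      refine le_trans Finset.card_image_le ?_
      rw [Finset.card_erase_of_mem hx]
      omega
    refine main_coset_right _ (hn S hc) x a b ?_ hab
    intro g hg
    by_cases hgx : g = x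
    · rw [hgx, mul_inv_cancel]
      exact Subgroup.one_mem _
    · apply Subgroup.subset_closure
      rw [Finset.mem_coe, hS]
      exact Finset.mem_image.2 ⟨g, Finset.mem_erase.2 ⟨hgx, hg⟩, rfl⟩

/-- **Hand-in.** For every field `K` and every group `G`:
(1) if the group algebra of a subgroup `H` is directly finite, then `a * b = 1` forces `b * a = 1`
as soon as the support of `a` lies in a single left coset `x H`, or the support of `b` lies in a
single right coset `H x`; nothing is asked of the other factor;
(2) if the group algebras of all subgroups generated by at most `n` elements are directly finite,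
then `a * b = 1` forces `b * a = 1` as soon as one of the two supports has at most `n + 1` elements;
(3) the conclusion holds when the translated support of one factor consists of pairwise commuting
elements;
(4) hence a failure `a * b = 1`, `b * a ≠ 1` needs at least three group elements in the support of
`a` and at least three in the support of `b`. -/
theorem result (K : Type v) [Field K] (G : Type u) [Group G] :
    (∀ (H : Subgroup G), DirFinOn K H → ∀ (x : G) (a b : MonoidAlgebra K G),
        ((∀ g ∈ a.coeff.support, x⁻¹ * g ∈ H) ∨ (∀ g ∈ b.coeff.support, g * x⁻¹ ∈ H)) →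
        a * b = 1 → b * a = 1) ∧
    (∀ n : ℕ, (∀ S : Finset G, S.card ≤ n → DirFinOn K (Subgroup.closure (S : Set G))) →
        ∀ a b : MonoidAlgebra K G,
        (a.coeff.support.card ≤ n + 1 ∨ b.coeff.support.card ≤ n + 1) →
        a * b = 1 → b * a = 1) ∧
    (∀ (x : G) (a b : MonoidAlgebra K G),
        ((∀ g ∈ a.coeff.support, ∀ h ∈ a.coeff.support,
            (x⁻¹ * g) * (x⁻¹ * h) = (x⁻¹ * h) * (x⁻¹ * g)) ∨
         (∀ g ∈ b.coeff.support, ∀ h ∈ b.coeff.support,
            (g * x⁻¹) * (h * x⁻¹) = (h * x⁻¹) * (g * x⁻¹))) →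
        a * b = 1 → b * a = 1) ∧
    (∀ a b : MonoidAlgebra K G, a * b = 1 → b * a ≠ 1 →
        3 ≤ a.coeff.support.card ∧ 3 ≤ b.coeff.support.card) := by
  refine ⟨?_, ?_, ?_, ?_⟩
  · intro H hH x a b h hab
    rcases h with h | h
    · exact main_coset H hH x a b h hab
    · exact main_coset_right H hH x a b h hab
  · intro n hn a b h hab
    rcases h with h | h
    · exact main_gen n hn a b h hab
    · exact main_gen_right n hn a b h hab
  · intro x a b h hab
    rcases h with h | h
    · exact main_comm x a b h hab
    · exact main_comm_right x a b h hab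
  · intro a b hab hba
    constructor
    · by_contra h
      exact hba (main_two a b (by omega) hab)
    · by_contra h
      exact hba (main_two_right a b (by omega) hab)

end Vale.Agent.Results.P194.CosetReduction
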