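import Mathlib

namespace Vale.Agent.Results.P194.StableLocalisation

open MonoidAlgebra

universe u v

variable {K : Type v} [Field K] {G : Type u} [Group G]

/-- `x` is supported in the subgroup `H`. -/
def SuppIn (H : Subgroup G) (x : MonoidAlgebra K G) : Prop :=
  ∀ g ∈ x.coeff.support, g ∈ H

/-- One-sided inverses are two-sided among the `n × n` matrices over `K[G]` all of whose entries
are supported in `H` (direct finiteness of the matrix ring over `K[H]`, viewed inside `K[G]`). -/
def StabFinOn (K : Type v) [Field K] {G : Type u} [Group G] (H : Subgroup G) (n : ℕ) : Prop :=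
  ∀ C D : Matrix (Fin n) (Fin n) (MonoidAlgebra K G),
    (∀ i j, SuppIn H (C i j)) → (∀ i j, SuppIn H (D i j)) → C * D = 1 → D * C = 1

noncomputable def fil (H : Subgroup G) (x : MonoidAlgebra K G) : MonoidAlgebra K G := by
  classical exact .ofCoeff (x.coeff.filter (fun h => h ∈ H))

noncomputable def cofil (H : Subgroup G) (x : MonoidAlgebra K G) : MonoidAlgebra K G := by
  classical exact .ofCoeff (x.coeff.filter (fun h => ¬ h ∈ H))

lemma fil_add_cofil (H : Subgroup G) (x : MonoidAlgebra K G) : fil H x + cofil H x = x := by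
  classical
  ext : 1
  simp only [fil, cofil, coeff_add]
  exact Finsupp.filter_add_filter_not _ _

lemma coeff_mul_eq_zero (x y : MonoidAlgebra K G) (h : G)
    (hh : ∀ s ∈ x.coeff.support, ∀ t ∈ y.coeff.support, s * t ≠ h) : (x * y).coeff h = 0 := by
  classical
  by_contra hne
  have : h ∈ (x * y).coeff.support := Finsupp.mem_support_iff.2 hne
  have := support_coeff_mul_subset x y this
  obtain ⟨s, hs, t, ht, rfl⟩ := Finset.mem_mul.1 this
  exact hh s hs t ht rfl

lemma mem_supp_fil (H : Subgroup G) (x : MonoidAlgebra K G) (s : G) :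
    s ∈ (fil H x).coeff.support ↔ s ∈ x.coeff.support ∧ s ∈ H := by
  classical
  simp [fil, Finsupp.support_filter, Finset.mem_filter]

lemma mem_supp_cofil (H : Subgroup G) (x : MonoidAlgebra K G) (s : G) :
    s ∈ (cofil H x).coeff.support ↔ s ∈ x.coeff.support ∧ s ∉ H := by
  classical
  simp [cofil, Finsupp.support_filter, Finset.mem_filter]

lemma suppIn_iff (H : Subgroup G) (x : MonoidAlgebra K G) :
    SuppIn H x ↔ ∀ g, g ∉ H → x.coeff g = 0 := by
  constructor
  · intro h g hg
    by_contra hne
    exact hg (h g (Finsupp.mem_support_iff.2 hne))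
  · intro h g hg
    by_contra hgH
    exact (Finsupp.mem_support_iff.1 hg) (h g hgH)

lemma coeff_mul_cofil (H : Subgroup G) (a b : MonoidAlgebra K G) (ha : SuppIn H a) (h : G)
    (hh : h ∈ H) : (a * cofil H b).coeff h = 0 := by
  apply coeff_mul_eq_zero
  intro s hs t ht hst
  have ht' := ((mem_supp_cofil H b t).1 ht).2
  apply ht'
  have : t = s⁻¹ * h := by rw [← hst]; group
  rw [this]
  exact H.mul_mem (H.inv_mem (ha s hs)) hh

lemma coeff_mul_fil (H : Subgroup G) (a b : MonoidAlgebra K G) (ha : SuppIn H a) (h : G)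
    (hh : h ∉ H) : (a * fil H b).coeff h = 0 := by
  apply coeff_mul_eq_zero
  intro s hs t ht hst
  have ht' := ((mem_supp_fil H b t).1 ht).2
  apply hh
  rw [← hst]
  exact H.mul_mem (ha s hs) ht'

lemma coeff_cofil_mul (H : Subgroup G) (a b : MonoidAlgebra K G) (hb : SuppIn H b) (h : G)
    (hh : h ∈ H) : (cofil H a * b).coeff h = 0 := by
  apply coeff_mul_eq_zero
  intro s hs t ht hst
  have hs' := ((mem_supp_cofil H a s).1 hs).2
  apply hs'
  have : s = h * t⁻¹ := by rw [← hst]; group
  rw [this]
  exact H.mul_mem hh (H.inv_mem (hb t ht))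

lemma coeff_fil_mul (H : Subgroup G) (a b : MonoidAlgebra K G) (hb : SuppIn H b) (h : G)
    (hh : h ∉ H) : (fil H a * b).coeff h = 0 := by
  apply coeff_mul_eq_zero
  intro s hs t ht hst
  have hs' := ((mem_supp_fil H a s).1 hs).2
  apply hh
  rw [← hst]
  exact H.mul_mem hs' (hb t ht)

lemma coeff_one_entry (H : Subgroup G) (n : ℕ) (i j : Fin n) (g : G) (hg : g ∉ H) :
    ((1 : Matrix (Fin n) (Fin n) (MonoidAlgebra K G)) i j).coeff g = 0 := by
  have h1 : g ≠ 1 := fun h1 => hg (h1 ▸ H.one_mem)
  by_cases hij : i = j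
  · subst hij
    simp [one_def, Ne.symm h1]
  · simp [Matrix.one_apply_ne hij]

theorem mat_mul_fil (H : Subgroup G) (n : ℕ) (A B : Matrix (Fin n) (Fin n) (MonoidAlgebra K G))
    (hA : ∀ i j, SuppIn H (A i j)) (hAB : A * B = 1) : A * B.map (fil H) = 1 := by
  classical
  refine Matrix.ext fun i j => ?_
  have e : (A * B.map (fil H)) i j + (A * B.map (cofil H)) i j
      = (1 : Matrix (Fin n) (Fin n) (MonoidAlgebra K G)) i j := by
    rw [← hAB]
    simp only [Matrix.mul_apply, Matrix.map_apply, ← Finset.sum_add_distrib, ← mul_add,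
      fil_add_cofil]
  ext : 1
  ext g
  by_cases hg : g ∈ H
  · have z : ((A * B.map (cofil H)) i j).coeff g = 0 := by
      rw [Matrix.mul_apply, coeff_sum, Finsupp.finsetSum_apply]
      exact Finset.sum_eq_zero (fun k _ => coeff_mul_cofil H _ _ (hA i k) g hg)
    have := congrArg (fun w => w.coeff g) e
    simp only [coeff_add, Finsupp.add_apply, z, add_zero] at this
    exact this
  · have z : ((A * B.map (fil H)) i j).coeff g = 0 := by
      rw [Matrix.mul_apply, coeff_sum, Finsupp.finsetSum_apply]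
      exact Finset.sum_eq_zero (fun k _ => coeff_mul_fil H _ _ (hA i k) g hg)
    rw [z, coeff_one_entry H n i j g hg]

theorem mat_fil_mul (H : Subgroup G) (n : ℕ) (A B : Matrix (Fin n) (Fin n) (MonoidAlgebra K G))
    (hB : ∀ i j, SuppIn H (B i j)) (hAB : A * B = 1) : A.map (fil H) * B = 1 := by
  classical
  refine Matrix.ext fun i j => ?_
  have e : (A.map (fil H) * B) i j + (A.map (cofil H) * B) i j
      = (1 : Matrix (Fin n) (Fin n) (MonoidAlgebra K G)) i j := by
    rw [← hAB]
    simp only [Matrix.mul_apply, Matrix.map_apply, ← Finset.sum_add_distrib, ← add_mul,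
      fil_add_cofil]
  ext : 1
  ext g
  by_cases hg : g ∈ H
  · have z : ((A.map (cofil H) * B) i j).coeff g = 0 := by
      rw [Matrix.mul_apply, coeff_sum, Finsupp.finsetSum_apply]
      exact Finset.sum_eq_zero (fun k _ => coeff_cofil_mul H _ _ (hB k j) g hg)
    have := congrArg (fun w => w.coeff g) e
    simp only [coeff_add, Finsupp.add_apply, z, add_zero] at this
    exact this
  · have z : ((A.map (fil H) * B) i j).coeff g = 0 := by
      rw [Matrix.mul_apply, coeff_sum, Finsupp.finsetSum_apply]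
      exact Finset.sum_eq_zero (fun k _ => coeff_fil_mul H _ _ (hB k j) g hg)
    rw [z, coeff_one_entry H n i j g hg]

theorem main_left (H : Subgroup G) (n : ℕ) (hH : StabFinOn K H n)
    (A B : Matrix (Fin n) (Fin n) (MonoidAlgebra K G))
    (hA : ∀ i j, SuppIn H (A i j)) (hAB : A * B = 1) : B * A = 1 := by
  have h1 := mat_mul_fil H n A B hA hAB
  have h2 : B.map (fil H) * A = 1 :=
    hH A (B.map (fil H)) hA (fun i j g hg => ((mem_supp_fil H _ g).1 hg).2) h1
  have h3 : B = B.map (fil H) := by
    calc B = (B.map (fil H) * A) * B := by rw [h2, one_mul]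
      _ = B.map (fil H) * (A * B) := by rw [Matrix.mul_assoc]
      _ = B.map (fil H) := by rw [hAB, mul_one]
  calc B * A = B.map (fil H) * A := by rw [← h3]
    _ = 1 := h2

theorem main_right (H : Subgroup G) (n : ℕ) (hH : StabFinOn K H n)
    (A B : Matrix (Fin n) (Fin n) (MonoidAlgebra K G))
    (hB : ∀ i j, SuppIn H (B i j)) (hAB : A * B = 1) : B * A = 1 := by
  have h1 := mat_fil_mul H n A B hB hAB
  have h2 : B * A.map (fil H) = 1 :=
    hH (A.map (fil H)) B (fun i j g hg => ((mem_supp_fil H _ g).1 hg).2) hB h1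
  have h3 : A = A.map (fil H) := by
    calc A = A * (B * A.map (fil H)) := by rw [h2, mul_one]
      _ = (A * B) * A.map (fil H) := by rw [Matrix.mul_assoc]
      _ = A.map (fil H) := by rw [hAB, one_mul]
  calc B * A = B * A.map (fil H) := by rw [← h3]
    _ = 1 := h2

lemma commute_of_supp (c d : MonoidAlgebra K G)
    (h : ∀ s ∈ c.coeff.support, ∀ t ∈ d.coeff.support, Commute s t) : Commute c d := by
  have hc := sum_coeff_single c
  have hd := sum_coeff_single d
  rw [← hc, ← hd]
  unfold Finsupp.sum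
  apply Commute.sum_left
  intro s hs
  apply Commute.sum_right
  intro t ht
  exact single_commute_single (h s hs t ht) (Commute.all _ _)

/-- The elements of `K[G]` supported in `H`, as a subring. -/
def subH (K : Type v) [Field K] {G : Type u} [Group G] (H : Subgroup G) :
    Subring (MonoidAlgebra K G) where
  carrier := {x | SuppIn H x}
  mul_mem' := by
    classical
    intro a b ha hb g hg
    have := support_coeff_mul_subset a b hg
    obtain ⟨s, hs, t, ht, rfl⟩ := Finset.mem_mul.1 this
    exact H.mul_mem (ha s hs) (hb t ht)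
  one_mem' := by
    show SuppIn H (1 : MonoidAlgebra K G)
    rw [suppIn_iff]
    intro g hg
    have h1 : g ≠ 1 := fun h1 => hg (h1 ▸ H.one_mem)
    simp [one_def, Ne.symm h1]
  add_mem' := by
    intro a b ha hb
    show SuppIn H (a + b)
    have ha' : SuppIn H a := ha
    have hb' : SuppIn H b := hb
    rw [suppIn_iff] at ha' hb' ⊢
    intro g hg
    rw [coeff_add, Finsupp.add_apply, ha' g hg, hb' g hg, add_zero]
  zero_mem' := by
    show SuppIn H (0 : MonoidAlgebra K G)
    rw [suppIn_iff]
    intro g _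
    simp
  neg_mem' := by
    intro a ha
    show SuppIn H (-a)
    have ha' : SuppIn H a := ha
    rw [suppIn_iff] at ha' ⊢
    intro g hg
    rw [coeff_neg, Finsupp.neg_apply, ha' g hg, neg_zero]

@[instance_reducible] noncomputable def commRingSubH (H : Subgroup G) (hc : ∀ s ∈ H, ∀ t ∈ H, s * t = t * s) :
    CommRing (subH K H) :=
  { (subH K H).toRing with
    mul_comm := fun x y => Subtype.ext
      (commute_of_supp x.1 y.1 (fun s hs t ht => hc s (x.2 s hs) t (y.2 t ht))).eq }

lemma stabFinOn_of_comm (H : Subgroup G) (hc : ∀ s ∈ H, ∀ t ∈ H, s * t = t * s) (n : ℕ) :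
    StabFinOn K H n := by
  intro C D hC hD hCD
  have : IsStablyFiniteRing (subH K H) :=
    @Matrix.instIsStablyFiniteRingOfCommSemiring _ (commRingSubH (K := K) H hc).toCommSemiring
  let C' : Matrix (Fin n) (Fin n) (subH K H) := fun i j => ⟨C i j, hC i j⟩
  let D' : Matrix (Fin n) (Fin n) (subH K H) := fun i j => ⟨D i j, hD i j⟩
  have eC : C = C'.map (subH K H).subtype := Matrix.ext fun i j => rfl
  have eD : D = D'.map (subH K H).subtype := Matrix.ext fun i j => rfl
  have h1 : C' * D' = 1 := by
    apply Matrix.map_injective (Subring.subtype_injective (subH K H))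
    show (C' * D').map (subH K H).subtype
      = (1 : Matrix (Fin n) (Fin n) (subH K H)).map (subH K H).subtype
    rw [Matrix.map_mul, ← eC, ← eD, hCD, Matrix.map_one _ (map_zero _) (map_one _)]
  have h2 : D' * C' = 1 := mul_eq_one_comm.1 h1
  rw [eC, eD, ← Matrix.map_mul, h2, Matrix.map_one _ (map_zero _) (map_one _)]

lemma exists_comm_subgroup (S : Set G) (hS : ∀ r ∈ S, ∀ r' ∈ S, r * r' = r' * r) :
    ∃ H : Subgroup G, (∀ r ∈ S, r ∈ H) ∧ ∀ s ∈ H, ∀ t ∈ H, s * t = t * s := by
  set C : Subgroup G := Subgroup.centralizer S with hC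
  set H : Subgroup G := Subgroup.centralizer (C : Set G) with hH
  have hSC : ∀ r ∈ S, r ∈ C := by
    intro r hr
    rw [hC, Subgroup.mem_centralizer_iff]
    intro r' hr'
    exact hS r' hr' r hr
  have hSH : ∀ r ∈ S, r ∈ H := by
    intro r hr
    rw [hH, Subgroup.mem_centralizer_iff]
    intro h hh
    have hh' : h ∈ C := hh
    rw [hC, Subgroup.mem_centralizer_iff] at hh'
    exact (hh' r hr).symm
  have hHC : ∀ t ∈ H, t ∈ C := by
    intro t ht
    rw [hH, Subgroup.mem_centralizer_iff] at ht
    rw [hC, Subgroup.mem_centralizer_iff]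
    intro r hr
    exact ht r (hSC r hr)
  refine ⟨H, hSH, ?_⟩
  intro s hs t ht
  rw [hH, Subgroup.mem_centralizer_iff] at hs
  exact (hs t (hHC t ht)).symm

/-- Diagonal matrix of group elements. -/
noncomputable def dg {n : ℕ} (x : Fin n → G) : Matrix (Fin n) (Fin n) (MonoidAlgebra K G) :=
  Matrix.diagonal (fun i => single (x i) (1 : K))

lemma dg_mul_dg_inv {n : ℕ} (x : Fin n → G) :
    (dg x : Matrix (Fin n) (Fin n) (MonoidAlgebra K G)) * dg (fun i => (x i)⁻¹) = 1 := by
  unfold dg
  rw [Matrix.diagonal_mul_diagonal, ← Matrix.diagonal_one]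
  congr 1
  funext i
  rw [single_mul_single, mul_inv_cancel, mul_one, one_def]

lemma dg_inv_mul_dg {n : ℕ} (x : Fin n → G) :
    (dg (fun i => (x i)⁻¹) : Matrix (Fin n) (Fin n) (MonoidAlgebra K G)) * dg x = 1 := by
  unfold dg
  rw [Matrix.diagonal_mul_diagonal, ← Matrix.diagonal_one]
  congr 1
  funext i
  rw [single_mul_single, inv_mul_cancel, mul_one, one_def]

theorem main_left_coset (H : Subgroup G) (n : ℕ) (hH : StabFinOn K H n) (x : Fin n → G)
    (A B : Matrix (Fin n) (Fin n) (MonoidAlgebra K G))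
    (hA : ∀ i j, ∀ g ∈ (A i j).coeff.support, (x i)⁻¹ * g ∈ H) (hAB : A * B = 1) :
    B * A = 1 := by
  classical
  set U : Matrix (Fin n) (Fin n) (MonoidAlgebra K G) := dg x with hU
  set V : Matrix (Fin n) (Fin n) (MonoidAlgebra K G) := dg (fun i => (x i)⁻¹) with hV
  have UV : U * V = 1 := dg_mul_dg_inv x
  have VU : V * U = 1 := dg_inv_mul_dg x
  have hA' : ∀ i j, SuppIn H ((V * A) i j) := by
    intro i j g hg
    rw [hV, dg, Matrix.diagonal_mul] at hg
    have := support_coeff_single_mul_subset (A i j) (1 : K) (x i)⁻¹ hg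
    obtain ⟨s, hs, rfl⟩ := Finset.mem_image.1 this
    exact hA i j s hs
  have hAB' : (V * A) * (B * U) = 1 := by
    calc (V * A) * (B * U) = V * (A * B) * U := by simp only [Matrix.mul_assoc]
      _ = 1 := by rw [hAB, mul_one, VU]
  have h := main_left H n hH (V * A) (B * U) hA' hAB'
  calc B * A = B * (U * V) * A := by rw [UV, mul_one]
    _ = (B * U) * (V * A) := by simp only [Matrix.mul_assoc]
    _ = 1 := h

theorem main_right_coset (H : Subgroup G) (n : ℕ) (hH : StabFinOn K H n) (x : Fin n → G)
    (A B : Matrix (Fin n) (Fin n) (MonoidAlgebra K G))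
    (hB : ∀ i j, ∀ g ∈ (B i j).coeff.support, g * (x j)⁻¹ ∈ H) (hAB : A * B = 1) :
    B * A = 1 := by
  classical
  set U : Matrix (Fin n) (Fin n) (MonoidAlgebra K G) := dg x with hU
  set V : Matrix (Fin n) (Fin n) (MonoidAlgebra K G) := dg (fun i => (x i)⁻¹) with hV
  have UV : U * V = 1 := dg_mul_dg_inv x
  have VU : V * U = 1 := dg_inv_mul_dg x
  have hB' : ∀ i j, SuppIn H ((B * V) i j) := by
    intro i j g hg
    rw [hV, dg, Matrix.mul_diagonal] at hg
    have := support_coeff_mul_single_subset (B i j) (1 : K) (x j)⁻¹ hg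
    obtain ⟨s, hs, rfl⟩ := Finset.mem_image.1 this
    exact hB i j s hs
  have hAB' : (U * A) * (B * V) = 1 := by
    calc (U * A) * (B * V) = U * (A * B) * V := by simp only [Matrix.mul_assoc]
      _ = 1 := by rw [hAB, mul_one, UV]
  have h := main_right H n hH (U * A) (B * V) hB' hAB'
  calc B * A = B * (V * U) * A := by rw [VU, mul_one]
    _ = (B * V) * (U * A) := by simp only [Matrix.mul_assoc]
    _ = 1 := h

/-- **Hand-in.** For every field `K`, group `G` and size `n`, for `n × n` matrices over `K[G]`: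
(1) if the `n × n` matrix ring over the group algebra of a subgroup `H` is directly finite, then
`A * B = 1` forces `B * A = 1` as soon as, for some group elements `x 1, ..., x n`, every entry in
row `i` of `A` is supported in the left coset `x i H`, or every entry in column `j` of `B` is
supported in the right coset `H x j`; nothing is asked of the other factor;
(2) unconditionally, `A * B = 1` forces `B * A = 1` if the translated group elements
`(x i)⁻¹ g` (`g` occurring in row `i` of `A`) commute pairwise, or the elements `g (x j)⁻¹`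
(`g` occurring in column `j` of `B`) commute pairwise. -/
theorem result (K : Type v) [Field K] (G : Type u) [Group G] (n : ℕ) :
    (∀ H : Subgroup G, StabFinOn K H n →
      ∀ (x : Fin n → G) (A B : Matrix (Fin n) (Fin n) (MonoidAlgebra K G)),
        ((∀ i j, ∀ g ∈ (A i j).coeff.support, (x i)⁻¹ * g ∈ H) ∨
         (∀ i j, ∀ g ∈ (B i j).coeff.support, g * (x j)⁻¹ ∈ H)) → A * B = 1 → B * A = 1) ∧
    (∀ (x : Fin n → G) (A B : Matrix (Fin n) (Fin n) (MonoidAlgebra K G)),
        ((∀ i j k l, ∀ g ∈ (A i j).coeff.support, ∀ h ∈ (A k l).coeff.support,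
            ((x i)⁻¹ * g) * ((x k)⁻¹ * h) = ((x k)⁻¹ * h) * ((x i)⁻¹ * g)) ∨
         (∀ i j k l, ∀ g ∈ (B i j).coeff.support, ∀ h ∈ (B k l).coeff.support,
            (g * (x j)⁻¹) * (h * (x l)⁻¹) = (h * (x l)⁻¹) * (g * (x j)⁻¹))) →
        A * B = 1 → B * A = 1) := by
  constructor
  · intro H hH x A B h hAB
    rcases h with h | h
    · exact main_left_coset H n hH x A B h hAB
    · exact main_right_coset H n hH x A B h hAB
  · intro x A B h hAB
    rcases h with h | h
    · obtain ⟨H, hSH, hcomm⟩ := exists_comm_subgroup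
        {r : G | ∃ i j, ∃ g ∈ (A i j).coeff.support, r = (x i)⁻¹ * g} (by
          rintro r ⟨i, j, g, hg, rfl⟩ r' ⟨k, l, g', hg', rfl⟩
          exact h i j k l g hg g' hg')
      exact main_left_coset H n (stabFinOn_of_comm H hcomm n) x A B
        (fun i j g hg => hSH _ ⟨i, j, g, hg, rfl⟩) hAB
    · obtain ⟨H, hSH, hcomm⟩ := exists_comm_subgroup
        {r : G | ∃ i j, ∃ g ∈ (B i j).coeff.support, r = g * (x j)⁻¹} (by
          rintro r ⟨i, j, g, hg, rfl⟩ r' ⟨k, l, g', hg', rfl⟩
          exact h i j k l g hg g' hg')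
      exact main_right_coset H n (stabFinOn_of_comm H hcomm n) x A B
        (fun i j g hg => hSH _ ⟨i, j, g, hg, rfl⟩) hAB

end Vale.Agent.Results.P194.StableLocalisation
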