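import Mathlib
import Vale.Agent.Results.P194.CosetReduction
import Vale.Agent.Results.P194.StableLocalisation

namespace Vale.Agent.Results.P194.Combined

open Vale.Agent.Results.P194

universe u v

/-- **Hand-in.** For every field `K` and every group `G`:
(1) for every `n`: if the `n × n` matrix ring over the group algebra of a subgroup `H` is directly
finite, then `A * B = 1` forces `B * A = 1` for `n × n` matrices over `K[G]` as soon as every entry
in row `i` of `A` is supported in a left coset `x i H`, or every entry in column `j` of `B` is
supported in a right coset `H x j`; nothing is asked of the other factor;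
(2) for every `n`, unconditionally: `A * B = 1` forces `B * A = 1` if the translated group elements
`(x i)⁻¹ g` (`g` occurring in row `i` of `A`) commute pairwise, or the elements `g (x j)⁻¹`
(`g` occurring in column `j` of `B`) commute pairwise;
(3) if the group algebras of all subgroups generated by at most `m` elements are directly finite,
then `a * b = 1` forces `b * a = 1` in `K[G]` as soon as one of the two supports has at most `m + 1`
elements;
(4) a failure `a * b = 1`, `b * a ≠ 1` in `K[G]` needs at least three group elements in the support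
of `a` and at least three in the support of `b`. -/
theorem result (K : Type v) [Field K] (G : Type u) [Group G] :
    (∀ (n : ℕ) (H : Subgroup G), StableLocalisation.StabFinOn K H n →
      ∀ (x : Fin n → G) (A B : Matrix (Fin n) (Fin n) (MonoidAlgebra K G)),
        ((∀ i j, ∀ g ∈ (A i j).coeff.support, (x i)⁻¹ * g ∈ H) ∨
         (∀ i j, ∀ g ∈ (B i j).coeff.support, g * (x j)⁻¹ ∈ H)) → A * B = 1 → B * A = 1) ∧
    (∀ (n : ℕ) (x : Fin n → G) (A B : Matrix (Fin n) (Fin n) (MonoidAlgebra K G)),
        ((∀ i j k l, ∀ g ∈ (A i j).coeff.support, ∀ h ∈ (A k l).coeff.support,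
            ((x i)⁻¹ * g) * ((x k)⁻¹ * h) = ((x k)⁻¹ * h) * ((x i)⁻¹ * g)) ∨
         (∀ i j k l, ∀ g ∈ (B i j).coeff.support, ∀ h ∈ (B k l).coeff.support,
            (g * (x j)⁻¹) * (h * (x l)⁻¹) = (h * (x l)⁻¹) * (g * (x j)⁻¹))) →
        A * B = 1 → B * A = 1) ∧
    (∀ m : ℕ,
        (∀ S : Finset G, S.card ≤ m → CosetReduction.DirFinOn K (Subgroup.closure (S : Set G))) →
        ∀ a b : MonoidAlgebra K G,
        (a.coeff.support.card ≤ m + 1 ∨ b.coeff.support.card ≤ m + 1) →
        a * b = 1 → b * a = 1) ∧
    (∀ a b : MonoidAlgebra K G, a * b = 1 → b * a ≠ 1 →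
        3 ≤ a.coeff.support.card ∧ 3 ≤ b.coeff.support.card) :=
  ⟨fun n => (StableLocalisation.result K G n).1,
   fun n => (StableLocalisation.result K G n).2,
   (CosetReduction.result K G).2.1,
   (CosetReduction.result K G).2.2.2⟩

end Vale.Agent.Results.P194.Combined
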